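import Vale.Agent.P287Z.O.L.B2

/-!
# P287 port of P294-L, block B9 (C): a free resolution of length one gives a matrix factorization
-/

open CategoryTheory Limits MvPolynomial

namespace Vale.Agent.P287Z.O.H741

open L V

abbrev Po : Type := MvPolynomial (Fin 6) ℂ

variable {W : Po}

/-- reduction modulo `W` of a free module -/
noncomputable def cmpO (W : Po) {ι : Type} [Fintype ι] (q : ι → ℤ) :
    FrO (0 : Po) q ⟶ FrO W q where
  app a := ModuleCat.ofHom ((frW (0 : Po) q a.deg).mapQ (frW W q a.deg)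
    LinearMap.id (fun _ hv i => (zero_dvd_iff.1 (hv i)).symm ▸ dvd_zero W))
  naturality a b m := by
    ext x
    obtain ⟨v, rfl⟩ := Submodule.Quotient.mk_surjective _ x
    rfl

theorem cmpO_mk (W : Po) {ι : Type} [Fintype ι] {q : ι → ℤ} {a : ℤ} (v : ι → Po)
    (h : ∀ i, Hg (2 * a - q i) (v i)) :
    (cmpO W q).app ⟨a⟩ (FrO.mk 0 v h) = FrO.mk W v h := rfl

variable [(grA W).ContainsZero] [(grA W).IsClosedUnderKernels]
  [(grA W).IsClosedUnderCokernels] [(grA W).IsClosedUnderFiniteProducts]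

/-- `mf_of_res`, matrix form -/
theorem mf_of_mat [FrOK W] (hW : Hg 6 W) (hW0 : W ≠ 0) (M : GA W) {n1 n0 : ℕ}
    (q1 : Fin n1 → ℤ) (q0 : Fin n0 → ℤ) (h1 : ∀ i, Even (q1 i)) (h0 : ∀ i, Even (q0 i))
    (φ : Matrix (Fin n0) (Fin n1) Po) (hφ : HgM q1 q0 φ)
    (ψ : Matrix (Fin n1) (Fin n0) Po) (hψ : ∀ i j, Hg (6 + q0 j - q1 i) (ψ i j))
    (e1 : φ * ψ = W • (1 : Matrix (Fin n0) (Fin n0) Po))
    (e2 : ψ * φ = W • (1 : Matrix (Fin n1) (Fin n1) Po))
    (π : FrO (0 : Po) q0 ⟶ M.obj)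
    (hsur : ∀ (a : ℤ) (w : M.obj.obj ⟨a⟩), ∃ v, π.app ⟨a⟩ v = w)
    (hw : ∀ (a : ℤ) v, π.app ⟨a⟩ ((matO 0 φ hφ).app ⟨a⟩ v) = 0)
    (hex : ∀ (a : ℤ) v, π.app ⟨a⟩ v = 0 → ∃ u, (matO 0 φ hφ).app ⟨a⟩ u = v) :
    ∃ (n : ℕ) (E : GMF W n) (i : M ⟶ (TT E).X 1) (w : i ≫ (TT E).d 1 2 = 0),
      Mono i ∧ (ShortComplex.mk i ((TT E).d 1 2) w).Exact := by
  classical
  -- the matrix factorization
  let p : Fin (n0 + n1) → ℤ := fun k => Sum.elim q0 (fun j => q1 j - 3) (finSumFinEquiv.symm k)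
  let d : Matrix (Fin (n0 + n1)) (Fin (n0 + n1)) Po :=
    Matrix.reindex finSumFinEquiv finSumFinEquiv (Matrix.fromBlocks 0 φ ψ 0)
  have hp0 : ∀ j, p (finSumFinEquiv (Sum.inl j)) = q0 j := fun j => by simp [p]
  have hp1 : ∀ j, p (finSumFinEquiv (Sum.inr j)) = q1 j - 3 := fun j => by simp [p]
  let E : GMF W (n0 + n1) :=
    { p := p
      d := d
      deg := by
        intro i j
        obtain ⟨i, rfl⟩ := finSumFinEquiv.surjective i
        obtain ⟨j, rfl⟩ := finSumFinEquiv.surjective j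
        rcases i with i | i <;> rcases j with j | j
        · simp only [d, Matrix.reindex_apply, Matrix.submatrix_apply, Equiv.symm_apply_apply,
            Matrix.fromBlocks_apply₁₁, Matrix.zero_apply]
          exact hga_zero _
        · simp only [d, Matrix.reindex_apply, Matrix.submatrix_apply, Equiv.symm_apply_apply,
            Matrix.fromBlocks_apply₁₂, hp0, hp1]
          have := hφ i j
          rwa [show 3 + (q1 j - 3) - q0 i = q1 j - q0 i by ring]
        · simp only [d, Matrix.reindex_apply, Matrix.submatrix_apply, Equiv.symm_apply_apply,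
            Matrix.fromBlocks_apply₂₁, hp0, hp1]
          have := hψ i j
          rwa [show 3 + q0 j - (q1 i - 3) = 6 + q0 j - q1 i by ring]
        · simp only [d, Matrix.reindex_apply, Matrix.submatrix_apply, Equiv.symm_apply_apply,
            Matrix.fromBlocks_apply₂₂, Matrix.zero_apply]
          exact hga_zero _
      sq := by
        simp only [d]
        rw [Matrix.reindex_apply, Matrix.submatrix_mul_equiv, Matrix.fromBlocks_multiply]
        rw [e1, e2]
        simp only [Matrix.zero_mul, Matrix.mul_zero, zero_add, add_zero]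
        have h3 : Matrix.fromBlocks (W • (1 : Matrix (Fin n0) (Fin n0) Po)) 0 0
            (W • (1 : Matrix (Fin n1) (Fin n1) Po)) = W • (1 : Matrix (Fin n0 ⊕ Fin n1) _ Po) := by
          rw [← Matrix.fromBlocks_one, Matrix.fromBlocks_smul, smul_zero, smul_zero]
        rw [h3, Matrix.submatrix_smul, Pi.smul_apply, Pi.smul_apply, Matrix.submatrix_one_equiv] }
  have hEp : E.p = p := rfl
  have hEd : E.d = d := rfl
  -- the matrix of the map to `T¹`
  let Ψ : Matrix (Fin (n0 + n1)) (Fin n0) Po :=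
    Matrix.reindex finSumFinEquiv (Equiv.refl _) (Matrix.fromRows 0 ψ)
  have hΨ0 : ∀ i (v : Fin n0 → Po), Ψ.mulVec v (finSumFinEquiv (Sum.inl i)) = 0 := by
    intro i v
    simp [Ψ, Matrix.mulVec, dotProduct, Matrix.reindex_apply]
  have hΨ1 : ∀ i (v : Fin n0 → Po), Ψ.mulVec v (finSumFinEquiv (Sum.inr i)) = ψ.mulVec v i := by
    intro i v
    simp [Ψ, Matrix.mulVec, dotProduct, Matrix.reindex_apply]
  have hΨ : HgM q0 (qsel E (fun _ => True) 1) Ψ := by
    intro i j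
    rw [qsel_true, hEp]
    obtain ⟨i, rfl⟩ := finSumFinEquiv.surjective i
    rcases i with i | i
    · have : Ψ (finSumFinEquiv (Sum.inl i)) j = 0 := by
        simp [Ψ, Matrix.reindex_apply]
      rw [this]
      exact hga_zero _
    · have : Ψ (finSumFinEquiv (Sum.inr i)) j = ψ i j := by
        simp [Ψ, Matrix.reindex_apply]
      rw [this, hp1]
      have := hψ i j
      rwa [show q0 j - (q1 i - 3 - 3 * 1) = 6 + q0 j - q1 i by ring]
  let J : FrO (0 : Po) q0 ⟶ FrO W (qsel E (fun _ => True) 1) := cmpO W q0 ≫ matO W Ψ hΨ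
  have hJ : ∀ (a : ℤ) (v : Fin n0 → Po) (hv : ∀ i, Hg (2 * a - q0 i) (v i)),
      J.app ⟨a⟩ (FrO.mk 0 v hv) = FrO.mk W (Ψ.mulVec v) (hΨ.mulVec hv) := fun a v hv => rfl
  -- the short complex
  have hzero : matO 0 φ hφ ≫ π = 0 := by
    ext a x
    exact hw a.deg x
  have hSex : (ShortComplex.mk (matO 0 φ hφ) π hzero).Exact := exact_of_apply fun a v hv => hex a v hv
  have hepi : Epi π := epi_of_surjective π fun a w => hsur a w
  have hJ0 : matO 0 φ hφ ≫ J = 0 := by
    ext a x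
    obtain ⟨v, hv, rfl⟩ := FrO.mk_surj 0 x
    change J.app ⟨a.deg⟩ (FrO.mk 0 (φ.mulVec v) (hφ.mulVec hv)) = 0
    rw [hJ, FrO.mk_eq_zero]
    intro i
    obtain ⟨i, rfl⟩ := finSumFinEquiv.surjective i
    rcases i with i | i
    · rw [hΨ0]; exact dvd_zero _
    · rw [hΨ1, Matrix.mulVec_mulVec, e2, Matrix.smul_mulVec, Matrix.one_mulVec]
      exact dvd_mul_right _ _
  let i0 : M.obj ⟶ FrO W (qsel E (fun _ => True) 1) := hSex.desc J hJ0
  have hi0 : π ≫ i0 = J := hSex.g_desc J hJ0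
  have hi0' : ∀ (a : ℤ) (v : (FrO (0 : Po) q0).obj ⟨a⟩), i0.app ⟨a⟩ (π.app ⟨a⟩ v) = J.app ⟨a⟩ v := by
    intro a v
    rw [← hi0]
    rfl
  let i : M ⟶ (TT E).X 1 := ObjectProperty.homMk i0
  have hd : ∀ (a : ℤ) (v : Fin (n0 + n1) → Po) (hv : ∀ i, Hg (2 * a - qsel E (fun _ => True) 1 i) (v i)),
      ∃ hv', ((TT E).d 1 2).hom.app ⟨a⟩ (FrO.mk W v hv : (FrO W (qsel E (fun _ => True) 1)).obj ⟨a⟩) =
        (FrO.mk W (E.d.mulVec v) hv' : (FrO W (qsel E (fun _ => True) 2)).obj ⟨a⟩) := by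
    intro a v hv
    have hv' : ∀ i, Hg (2 * a - qsel E (fun _ => True) 2 i) (E.d.mulVec v i) := by
      intro i
      rw [qsel_true]
      rw [Matrix.mulVec, dotProduct]
      exact hg_sum fun j => hg_mul (E.deg i j) (hv j) (by rw [qsel_true]; ring)
    refine ⟨hv', ?_⟩
    rw [T_d E _ 1 2 rfl]
    change (matO W _ (hgM_d E (fun _ => True) 1 2 rfl)).app ⟨a⟩ (FrO.mk W v hv) = _
    rw [matO_mk]
    refine FrO.mk_congr W ?_
    rw [mask_true]
  have hdv0 : ∀ i (v : Fin (n0 + n1) → Po), E.d.mulVec v (finSumFinEquiv (Sum.inl i)) =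
      φ.mulVec (fun j => v (finSumFinEquiv (Sum.inr j))) i := by
    intro i v
    rw [hEd]
    simp only [d, Matrix.mulVec, dotProduct, Matrix.reindex_apply, Matrix.submatrix_apply,
      Equiv.symm_apply_apply]
    rw [← Equiv.sum_comp finSumFinEquiv, Fintype.sum_sum_type]
    simp
  have hdv1 : ∀ i (v : Fin (n0 + n1) → Po), E.d.mulVec v (finSumFinEquiv (Sum.inr i)) =
      ψ.mulVec (fun j => v (finSumFinEquiv (Sum.inl j))) i := by
    intro i v
    rw [hEd]
    simp only [d, Matrix.mulVec, dotProduct, Matrix.reindex_apply, Matrix.submatrix_apply,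
      Equiv.symm_apply_apply]
    rw [← Equiv.sum_comp finSumFinEquiv, Fintype.sum_sum_type]
    simp
  have hiJ : ∀ (a : ℤ) (v : Fin n0 → Po) (hv : ∀ i, Hg (2 * a - q0 i) (v i)),
      i.hom.app ⟨a⟩ (π.app ⟨a⟩ (FrO.mk 0 v hv)) = FrO.mk W (Ψ.mulVec v) (hΨ.mulVec hv) := by
    intro a v hv
    exact (hi0' a _).trans (hJ a v hv)
  have hw0 : i ≫ (TT E).d 1 2 = 0 := by
    apply ObjectProperty.hom_ext
    rw [← cancel_epi π]
    ext a x
    obtain ⟨v, hv, rfl⟩ := FrO.mk_surj 0 x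
    change ((TT E).d 1 2).hom.app ⟨a.deg⟩ (i.hom.app ⟨a.deg⟩ (π.app ⟨a.deg⟩ (FrO.mk 0 v hv))) = 0
    rw [hiJ]
    obtain ⟨hv', h⟩ := hd a.deg (Ψ.mulVec v) (hΨ.mulVec hv)
    refine h.trans ((FrO.mk_eq_zero W (q := qsel E (fun _ => True) 2)).2 fun i => ?_)
    obtain ⟨i, rfl⟩ := finSumFinEquiv.surjective i
    rcases i with i | i
    · rw [hdv0]
      have : (fun j => Ψ.mulVec v (finSumFinEquiv (Sum.inr j))) = ψ.mulVec v :=
        funext fun j => hΨ1 j v
      rw [this, Matrix.mulVec_mulVec, e1, Matrix.smul_mulVec, Matrix.one_mulVec]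
      exact dvd_mul_right _ _
    · rw [hdv1]
      have : (fun j => Ψ.mulVec v (finSumFinEquiv (Sum.inl j))) = 0 :=
        funext fun j => hΨ0 j v
      rw [this, Matrix.mulVec_zero]
      exact dvd_zero _
  refine ⟨n0 + n1, E, i, hw0, ?_, ?_⟩
  · -- injectivity
    refine GA_mono_of_injective W i fun a => ?_
    rw [injective_iff_map_eq_zero (i.hom.app ⟨a⟩).hom]
    intro m hm
    obtain ⟨x, rfl⟩ := hsur a m
    obtain ⟨v, hv, rfl⟩ := FrO.mk_surj 0 x
    replace hm := (FrO.mk_eq_zero W (q := qsel E (fun _ => True) 1)).1 ((hiJ a v hv).symm.trans hm)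
    have hx' : ∀ j, ∃ u, Hg (2 * a - q1 j) u ∧ ψ.mulVec v j = W * u := fun j => by
      obtain ⟨g, hg⟩ := hm (finSumFinEquiv (Sum.inr j))
      rw [hΨ1] at hg
      have h3 : Hg (2 * a - q1 j + 6) (ψ.mulVec v j) := by
        rw [Matrix.mulVec, dotProduct]
        exact hg_sum fun t => hg_mul (hψ j t) (hv t) (by ring)
      obtain ⟨g', hg', h4⟩ := exists_hg_of_eq_mul hW h3 hg
      refine ⟨g', ?_, h4⟩
      rwa [show 2 * a - q1 j + 6 - 6 = 2 * a - q1 j by ring] at hg'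
    choose u hu hu' using hx'
    have h5 : v = φ.mulVec u := by
      have h6 : W • v = W • φ.mulVec u := by
        have h7 : ψ.mulVec v = W • u := funext hu'
        rw [← Matrix.mulVec_smul, ← h7, Matrix.mulVec_mulVec, e1, Matrix.smul_mulVec,
          Matrix.one_mulVec]
      funext i
      exact mul_left_cancel₀ hW0 (congrFun h6 i)
    have h8 : FrO.mk 0 v hv = (matO 0 φ hφ).app ⟨a⟩ (FrO.mk 0 u hu) := by
      rw [matO_mk]
      exact FrO.mk_congr 0 h5
    rw [h8]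
    exact hw a _
  · refine GA_exact_of_apply W fun a x hx => ?_
    obtain ⟨v, hv, rfl⟩ := FrO.mk_surj W (q := qsel E (fun _ => True) 1) x
    obtain ⟨hv', h⟩ := hd a v hv
    replace hx := (FrO.mk_eq_zero W (q := qsel E (fun _ => True) 2)).1 (h.symm.trans hx)
    have hv1 : ∀ j, Hg (2 * a + 6 - q1 j) (v (finSumFinEquiv (Sum.inr j))) := fun j => by
      have := hv (finSumFinEquiv (Sum.inr j))
      rw [qsel_true, hEp, hp1] at this
      rwa [show 2 * a - (q1 j - 3 - 3 * 1) = 2 * a + 6 - q1 j by ring] at this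
    have hx' : ∀ j, ∃ u, Hg (2 * a - q0 j) u ∧
        φ.mulVec (fun j => v (finSumFinEquiv (Sum.inr j))) j = W * u := fun j => by
      obtain ⟨g, hg⟩ := hx (finSumFinEquiv (Sum.inl j))
      rw [hdv0] at hg
      have h3 : Hg (2 * a + 6 - q0 j) (φ.mulVec (fun j => v (finSumFinEquiv (Sum.inr j))) j) := by
        rw [Matrix.mulVec, dotProduct]
        exact hg_sum fun t => hg_mul (hφ j t) (hv1 t) (by ring)
      obtain ⟨g', hg', h4⟩ := exists_hg_of_eq_mul hW h3 hg
      refine ⟨g', ?_, h4⟩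
      rwa [show 2 * a + 6 - q0 j - 6 = 2 * a - q0 j by ring] at hg'
    choose u hu hu' using hx'
    have h5 : (fun j => v (finSumFinEquiv (Sum.inr j))) = ψ.mulVec u := by
      have h6 : W • (fun j => v (finSumFinEquiv (Sum.inr j))) = W • ψ.mulVec u := by
        have h7 : φ.mulVec (fun j => v (finSumFinEquiv (Sum.inr j))) = W • u := funext hu'
        rw [← Matrix.mulVec_smul, ← h7, Matrix.mulVec_mulVec, e2, Matrix.smul_mulVec,
          Matrix.one_mulVec]
      funext i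
      exact mul_left_cancel₀ hW0 (congrFun h6 i)
    refine ⟨π.app ⟨a⟩ (FrO.mk 0 u hu), ?_⟩
    change i.hom.app ⟨a⟩ (π.app ⟨a⟩ (FrO.mk 0 u hu)) = _
    rw [hiJ]
    refine FrO.mk_congr W (funext fun k => ?_)
    obtain ⟨k, rfl⟩ := finSumFinEquiv.surjective k
    rcases k with k | k
    · rw [hΨ0]
      symm
      refine hga_odd_eq_zero (hv _) ?_
      rw [qsel_true, hEp, hp0]
      obtain ⟨r, hr⟩ := h0 k
      lia
    · rw [hΨ1]
      exact (congrFun h5 k).symm

/-- **B9 (C)** a free resolution of length one of a module killed by `W` comes from a matrix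
factorization -/
theorem mf_of_res [FrOK W] (hW : Hg 6 W) (hW0 : W ≠ 0) (M : GA W) {n1 n0 : ℕ}
    (q1 : Fin n1 → ℤ) (q0 : Fin n0 → ℤ) (h1 : ∀ i, Even (q1 i)) (h0 : ∀ i, Even (q0 i))
    (ι : FrO (0 : Po) q1 ⟶ FrO (0 : Po) q0) (π : FrO (0 : Po) q0 ⟶ M.obj)
    (hinj : ∀ (a : ℤ) v, ι.app ⟨a⟩ v = 0 → v = 0)
    (hsur : ∀ (a : ℤ) (w : M.obj.obj ⟨a⟩), ∃ v, π.app ⟨a⟩ v = w)
    (hw : ∀ (a : ℤ) v, π.app ⟨a⟩ (ι.app ⟨a⟩ v) = 0)
    (hex : ∀ (a : ℤ) v, π.app ⟨a⟩ v = 0 → ∃ u, ι.app ⟨a⟩ u = v) :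
    ∃ (n : ℕ) (E : GMF W n) (i : M ⟶ (TT E).X 1) (w : i ≫ (TT E).d 1 2 = 0),
      Mono i ∧ (ShortComplex.mk i ((TT E).d 1 2) w).Exact := by
  classical
  obtain ⟨φ, hφ, rfl⟩ := matO_surj (0 : Po) ι
  -- the homotopy
  have key : ∀ j : Fin n0, ∃ v : Fin n1 → Po, (∀ i, Hg (6 + q0 j - q1 i) (v i)) ∧
      φ.mulVec v = W • (Pi.single j 1 : Fin n0 → Po) := by
    intro j
    have hj : q0 j = 2 * (q0 j / 2) := by
      obtain ⟨r, hr⟩ := h0 j
      lia
    have hvj : ∀ i, Hg (2 * (q0 j / 2 + 3) - q0 i) ((W • (Pi.single j 1 : Fin n0 → Po)) i) := by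
      intro i
      rw [Pi.smul_apply, smul_eq_mul]
      by_cases hij : i = j
      · subst hij
        rw [Pi.single_eq_same, mul_one]
        convert hW using 1
        lia
      · rw [Pi.single_eq_of_ne hij, mul_zero]
        exact hga_zero _
    have hone : ∀ i, Hg (2 * (q0 j / 2) - q0 i) ((Pi.single j 1 : Fin n0 → Po) i) := by
      intro i
      by_cases hij : i = j
      · subst hij
        rw [Pi.single_eq_same, ← hj, sub_self]
        exact hga_one
      · rw [Pi.single_eq_of_ne hij]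
        exact hga_zero _
    have hker : π.app ⟨q0 j / 2 + 3⟩ (FrO.mk 0 (W • (Pi.single j 1 : Fin n0 → Po)) hvj) = 0 := by
      have h3 : FrO.mk 0 (W • (Pi.single j 1 : Fin n0 → Po)) hvj =
          act (FrO 0 q0) W (q0 j / 2) (q0 j / 2 + 3) (FrO.mk 0 (Pi.single j 1) hone) := by
        rw [FrO.act_mk 0 (by convert hW using 1; ring) hone (fun i => by
          have := hvj i
          rwa [Pi.smul_apply, smul_eq_mul] at this)]
        rfl
      rw [h3, act_natural_apply, M.property.1]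
      rfl
    obtain ⟨x, hx⟩ := hex _ _ hker
    obtain ⟨v, hv, rfl⟩ := FrO.mk_surj 0 x
    refine ⟨v, fun i => ?_, ?_⟩
    · have := hv i
      rwa [show 2 * (q0 j / 2 + 3) - q1 i = 6 + q0 j - q1 i by lia] at this
    · rw [matO_mk, FrO.mk_eq] at hx
      funext i
      exact sub_eq_zero.1 (zero_dvd_iff.1 (hx i))
  choose V0 hV0 hV1 using key
  let ψ : Matrix (Fin n1) (Fin n0) Po := fun i j => V0 j i
  have hψ : ∀ i j, Hg (6 + q0 j - q1 i) (ψ i j) := fun i j => hV0 j i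
  have e1 : φ * ψ = W • (1 : Matrix (Fin n0) (Fin n0) Po) := by
    ext1 i j
    have := congrFun (hV1 j) i
    rw [Matrix.mul_apply, Matrix.smul_apply]
    rw [Matrix.mulVec, dotProduct, Pi.smul_apply] at this
    rw [Matrix.one_apply]
    change ∑ t, φ i t * V0 j t = _
    rw [this, Pi.single_apply]
  have hinj' : ∀ (a : ℤ) (v : Fin n1 → Po), (∀ i, Hg (2 * a - q1 i) (v i)) →
      φ.mulVec v = 0 → v = 0 := by
    intro a v hv h
    have h3 := hinj a (FrO.mk 0 v hv) (by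
      rw [matO_mk, FrO.mk_eq_zero]
      intro i
      rw [h]
      exact dvd_zero _)
    rw [FrO.mk_eq_zero] at h3
    funext i
    exact zero_dvd_iff.1 (h3 i)
  have e2 : ψ * φ = W • (1 : Matrix (Fin n1) (Fin n1) Po) := by
    have h3 : ∀ j, (fun i => (ψ * φ - W • (1 : Matrix (Fin n1) (Fin n1) Po)) i j) = 0 := by
      intro j
      refine hinj' (q1 j / 2 + 3) _ (fun i => ?_) ?_
      · rw [Matrix.sub_apply, Matrix.smul_apply, smul_eq_mul, Matrix.mul_apply]
        have hj : q1 j = 2 * (q1 j / 2) := by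
          obtain ⟨r, hr⟩ := h1 j
          lia
        refine hga_sub (hg_sum fun t => hg_mul (hψ i t) (hφ t j) (by lia)) ?_
        by_cases hij : i = j
        · subst hij
          rw [Matrix.one_apply_eq, mul_one]
          convert hW using 1
          lia
        · rw [Matrix.one_apply_ne hij, mul_zero]
          exact hga_zero _
      · funext i
        have h4 : φ * (ψ * φ - W • (1 : Matrix (Fin n1) (Fin n1) Po)) = 0 := by
          rw [Matrix.mul_sub, ← Matrix.mul_assoc, e1, Matrix.smul_mul, Matrix.one_mul,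
            Matrix.mul_smul, Matrix.mul_one, sub_self]
        exact congrFun (congrFun h4 i) j
    ext1 i j
    exact sub_eq_zero.1 (congrFun (h3 j) i)
  exact mf_of_mat hW hW0 M q1 q0 h1 h0 φ hφ ψ hψ e1 e2 π hsur hw hex

end Vale.Agent.P287Z.O.H741
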